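import Vale.Agent.Lib.P113.MainAll

open scoped ContDiff

namespace Vale.Agent.Results.P113.AllMachines

open Vale.Agent.Lib.P113

/-- Halting detection by particle paths of forced Navier-Stokes flows from rest on the flat
three-torus, for every viscosity, every Turing machine and every input. -/
theorem result (ν : ℝ) (hν : 0 < ν) :
    ∃ (a : Pt) (O : Set Pt) (ϑ : ℝ → ℝ), IsOpen O ∧
      (∀ (p : Pt) (n : Fin 3 → ℤ), (fun i => p i + n i) ∈ O ↔ p ∈ O) ∧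
      ContDiff ℝ ∞ ϑ ∧
      ∀ M : Machine, ∃ G : ℝ → Pt → Pt,
        ContDiff ℝ ∞ (fun q : ℝ × Pt => G q.1 q.2) ∧ (∀ t, Periodic3 (G t)) ∧
        (∀ t x, G (t + 3) x = G t x) ∧
        ∀ w : List (Fin (M.m + 1)), ∃ (f u : ℝ → Pt → Pt) (X : ℝ → Pt),
          ContDiff ℝ ∞ (fun q : ℝ × Pt => f q.1 q.2) ∧ (∀ t, Periodic3 (f t)) ∧
          (∀ t, 0 ≤ t → t ≤ 1 → ∀ x, f t x = ϑ t • ![inputCode M w, 0, 0]) ∧
          (∀ t, 1 ≤ t → ∀ x, f t x = G t x) ∧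
          ContDiff ℝ ∞ (fun q : ℝ × Pt => u q.1 q.2) ∧ (∀ t, Periodic3 (u t)) ∧
          SolvesNS ν f u (fun _ _ => 0) ∧
          (∀ T : ℝ, 0 < T → ClassicalOn ν f T u (fun _ _ => 0)) ∧
          (∀ T : ℝ, 0 < T → ∀ (v : ℝ → Pt → Pt) (π : ℝ → Pt → ℝ), ClassicalOn ν f T v π →
            ∀ t ∈ Set.Icc 0 T, ∀ x, v t x = u t x ∧ π t x = 0) ∧
          X 0 = a ∧ (∀ t, 0 ≤ t → HasDerivAt X (u t (X t)) t) ∧
          (∀ Y : ℝ → Pt, Y 0 = a → (∀ t, 0 ≤ t → HasDerivAt Y (u t (Y t)) t) →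
            ∀ t, 0 ≤ t → Y t = X t) ∧
          ((∃ t, 0 ≤ t ∧ X t ∈ O) ↔ M.HaltsOn w) :=
  main_all ν hν

end Vale.Agent.Results.P113.AllMachines
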