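import Vale.Agent.Lib.P113.MachL
import Vale.Agent.Lib.P113.Eff.Program

open scoped ContDiff

namespace Vale.Agent.Results.P113.ForceCompiler

open Vale.Agent.Lib.P113

/-- For every computable viscosity `ν > 0` (given by a computable sequence `νa` of rational
approximations) there are a point `a`, an open `ℤ³`-periodic set `O`, a computable map `comp`
from descriptions of machines and of input words to programs, and forces `G M` of time period
`3` depending on the machine `M` only, such that for every description `d` (every machine has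
one) and every word `w` (every input has one): `comp (d, w)` is a program returning all mixed
derivatives at rational points, to any accuracy, of a smooth periodic force `f`, which from
time `1` on equals the force `G` of the machine of `d`; the forced Navier-Stokes system from
rest has the smooth periodic solution `u` with zero pressure, classical on every `[0, T]` and
unique among classical solutions there; and the particle path of `a` enters `O` at some time
`t ≥ 0` exactly when the machine of `d` halts on the input given by `w`. -/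
theorem result (ν : ℝ) (hν : 0 < ν) (νa : ℕ → QQ) (hνc : Computable νa)
    (hνa : ∀ n : ℕ, |(νa n).val - ν| ≤ 1 / ((n : ℝ) + 1)) :
    ∃ (a : Pt) (O : Set Pt) (comp : MDesc × List ℕ → Nat.Partrec.Code)
      (G : Machine → ℝ → Pt → Pt),
      IsOpen O ∧ (∀ (p : Pt) (n : Fin 3 → ℤ), (fun i => p i + n i) ∈ O ↔ p ∈ O) ∧
      Computable comp ∧
      (∀ M : Machine, ∃ d : MDesc, d.toMachine = M) ∧
      (∀ (d : MDesc) (w' : List (Fin (d.toMachine.m + 1))), ∃ w : List ℕ, d.word w = w') ∧
      (∀ M : Machine, ContDiff ℝ ∞ (fun q : ℝ × Pt => G M q.1 q.2) ∧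
        (∀ t, Periodic3 (G M t)) ∧ (∀ t x, G M (t + 3) x = G M t x)) ∧
      ∀ (d : MDesc) (w : List ℕ), ∃ (f u : ℝ → Pt → Pt) (X : ℝ → Pt),
        ProgramFor (comp (d, w)) f ∧
        ContDiff ℝ ∞ (fun q : ℝ × Pt => f q.1 q.2) ∧ (∀ t, Periodic3 (f t)) ∧
        (∀ t, 1 ≤ t → ∀ x, f t x = G d.toMachine t x) ∧
        ContDiff ℝ ∞ (fun q : ℝ × Pt => u q.1 q.2) ∧ (∀ t, Periodic3 (u t)) ∧
        SolvesNS ν f u (fun _ _ => 0) ∧
        (∀ T : ℝ, 0 < T → ClassicalOn ν f T u (fun _ _ => 0)) ∧
        (∀ T : ℝ, 0 < T → ∀ (v : ℝ → Pt → Pt) (π : ℝ → Pt → ℝ), ClassicalOn ν f T v π →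
          ∀ t ∈ Set.Icc 0 T, ∀ x, v t x = u t x ∧ π t x = 0) ∧
        X 0 = a ∧ (∀ t, 0 ≤ t → HasDerivAt X (u t (X t)) t) ∧
        (∀ Y : ℝ → Pt, Y 0 = a → (∀ t, 0 ≤ t → HasDerivAt Y (u t (Y t)) t) →
          ∀ t, 0 ≤ t → Y t = X t) ∧
        ((∃ t, 0 ≤ t ∧ X t ∈ O) ↔ d.toMachine.HaltsOn (d.word w)) := by
  have hν' : CRealOn (Set.univ : Set Unit) (fun _ => ν) :=
    ⟨fun _ n => νa n, hνc.comp Computable.snd, fun _ _ n => hνa n⟩
  obtain ⟨comp, hcomp, hprog⟩ := force_program ν hν'
  choose G hG1 hG2 hG3 hrun using fun M : Machine => main_allL ν hν M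
  refine ⟨0, haltZone, comp, G, haltZone_open, haltZone_periodic, hcomp,
    MDesc.toMachine_surjective, MDesc.word_surjective, fun M => ⟨hG1 M, hG2 M, hG3 M⟩, ?_⟩
  intro d w
  obtain ⟨X, h⟩ := hrun d.toMachine (d.word w)
  exact ⟨forceOf ν (uK d.toMachine (inputCode d.toMachine (d.word w))),
    uK d.toMachine (inputCode d.toMachine (d.word w)), X, hprog d w, h⟩

end Vale.Agent.Results.P113.ForceCompiler
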